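import Vale.Agent.P246.Dis.H965.Main
import Vale.Agent.P246.Dis.H366.Tower
import Vale.Agent.P246.Dis.H302.ExA2
import Vale.Agent.P246.Dis.H538.Indep

/-! # P246: the group `A` has no presentation of deficiency one (block B for `GA`) -/

open Subgroup

namespace Vale.Agent.P246.Dis.H52

open Vale.Agent.P246.T

theorem gen_top : closure ({xA 0, xA 1, xA 2} : Set GA) = ⊤ := by
  rw [eq_top_iff]
  intro g _
  obtain ⟨w, rfl⟩ := PrA.surj g
  have hx : ∀ i : Fin 3, xA i ∈ closure ({xA 0, xA 1, xA 2} : Set GA) := by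
    intro i
    apply Subgroup.subset_closure
    fin_cases i <;> simp
  have h : ∀ w : FreeGroup (Fin 3), FreeGroup.lift xA w ∈ closure ({xA 0, xA 1, xA 2} : Set GA) := by
    intro w
    induction w using FreeGroup.induction_on with
    | C1 => rw [map_one]; exact one_mem _
    | of i => rw [FreeGroup.lift_apply_of]; exact hx i
    | inv_of i h => rw [map_inv]; exact inv_mem h
    | mul x y h1 h2 => rw [map_mul]; exact mul_mem h1 h2
  exact h w

theorem locSolv : ∃ (B : Type) (_ : Group B) (θ : GA →* B), θ (xA 1) ≠ 1 ∧ ∀ s : Set GA,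
    s.Finite → (∀ x ∈ s, phiA x = 1) → Group.IsSolvable (closure (θ '' s)) := by
  obtain ⟨B, i, θ, h1, h2⟩ := H366.exists_locSolv (xA 0) (xA 1) (xA 2) gen_top phiA phiA_a phiA_b
    phiA_t (by
      intro a b t h1 h2 h3
      refine exists_liftA a b t ?_ ?_ ?_
      · have h4 : a * b * a * b * a * b * (b * a * a)⁻¹ = 1 := by rw [← h1]; group
        exact mul_inv_eq_one.1 h4
      · rw [h2, pow_succ, pow_two]
      · rw [← h3, pow_two])
  refine ⟨B, i, θ, h1, fun s hs hs' => ?_⟩
  have h3 := h2 hs.toFinset (fun x hx => hs' x (hs.mem_toFinset.1 hx))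
  rwa [hs.coe_toFinset] at h3

/-- independence of the exponent vectors modulo `p` -/
theorem ind_of_indep {n : ℕ} {J : Type} (r : J → FreeGroup (Fin n)) (p : ℕ)
    (h : LinearIndependent (ZMod p) fun j => fun i => (((H538.expo (r j)).toAdd i : ℤ) : ZMod p)) :
    H965.Ind p r := by
  intro c v hv j
  let f : FreeGroup (Fin n) →* Multiplicative (Fin n → ZMod p) :=
    (AddMonoidHom.toMultiplicative
      ({ toFun := fun u i => ((u i : ℤ) : ZMod p)
         map_zero' := by funext i; simp
         map_add' := fun a b => by funext i; simp } : (Fin n → ℤ) →+ (Fin n → ZMod p))).comp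
      H538.expo
  let g : Additive (Abelianization (FreeGroup (Fin n))) →+ (Fin n → ZMod p) :=
    { toFun := fun x => ((Abelianization.lift f) x.toMul).toAdd
      map_zero' := by simp
      map_add' := fun a b => by simp }
  have hg : ∀ w : FreeGroup (Fin n), g (H965.cl w) = fun i => (((H538.expo w).toAdd i : ℤ) : ZMod p) := by
    intro w
    rfl
  have h1 : (p : ℤ) • g v = 0 := by
    funext i
    simp
  rw [← map_zsmul, ← hv, map_finsuppSum] at h1
  have h2 : Finsupp.linearCombination (ZMod p)
      (fun j => fun i => (((H538.expo (r j)).toAdd i : ℤ) : ZMod p))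
      (c.mapRange (fun z : ℤ => (z : ZMod p)) (by simp)) = 0 := by
    rw [Finsupp.linearCombination_apply, Finsupp.sum_mapRange_index (by simp), ← h1]
    refine Finsupp.sum_congr fun k _ => ?_
    rw [map_zsmul, hg]
    funext i
    simp
  have h3 := linearIndependent_iff.1 h _ h2
  have h4 := DFunLike.congr_fun h3 j
  rw [Finsupp.mapRange_apply, Finsupp.zero_apply] at h4
  exact (ZMod.intCast_zmod_eq_zero_iff_dvd _ _).1 h4

/-- **The group `A` has no presentation with one generator more than relators.** -/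
theorem core (Q : FinPresentation GA) : Q.gens ≠ Q.rels + 1 := by
  intro hQ
  obtain ⟨B, _, θ, hb, hθ⟩ := locSolv
  refine hb (H965.main (FreeGroup.lift Q.x) Q.surj Q.r Q.ker_eq ?_ (n := 2) (by norm_num)
    (by rw [pow_two]; exact b_sq) θ ?_)
  · intro p hp
    have : Fact p.Prime := ⟨hp⟩
    refine ind_of_indep Q.r p ?_
    exact (H538.indep Q (ZMod p) (fun g => ((Multiplicative.toAdd (phiA g) : ℤ) : ZMod p)) (by
      intro ψ
      refine ⟨(ψ (xA 2)).toAdd, fun g => ?_⟩
      rw [hom_factor ψ g, toAdd_zpow, zsmul_eq_mul, mul_comm])).2 hQ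
  · intro s hs hs'
    refine hθ s hs fun x hx => ?_
    have h := hs' x hx
    rw [← ker_phiA] at h
    exact h

end Vale.Agent.P246.Dis.H52
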