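import Vale.Agent.P246.Dis.H52.Skel
import Vale.Agent.P246.Dis.H105.BlockD
import Vale.Agent.P246.Dis.H302.ExA2
import Vale.Agent.P246.Dis.H538.Alg
import Vale.Agent.P246.Dis.H538.Indep

/-! # P246: final assembly of the disproof of Wall's D(2) problem for the explicit group `GA`

Missing input: `SpecCore` (block B). -/

open Topology Set

namespace Vale.Agent.P246.Dis.H52

open Vale.Agent.P246.T

theorem blockD : SpecD := by
  intro G _ Pr β lam hβ hlam
  obtain ⟨B, i1, i2, i3, i4, h⟩ := H105.blockD G Pr β lam hβ hlam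
  exact ⟨B, i1, i2, i4, h.1, i3, h.2⟩

/-- BLOCK B: no presentation of `A` has one generator more than relators. -/
def SpecCore : Prop := ∀ Q : FinPresentation GA, Q.gens ≠ Q.rels + 1

theorem gens_le (hB : SpecCore) : SpecDef GA := by
  intro Q
  have h := (H538.indep Q ℚ (fun g => ((Multiplicative.toAdd (phiA g) : ℤ) : ℚ)) (by
    intro ψ
    refine ⟨(ψ (xA 2)).toAdd, fun g => ?_⟩
    rw [hom_factor ψ g, toAdd_zpow, zsmul_eq_mul, mul_comm])).1
  have h2 := hB Q
  omega

/-- the algebraic D(2) property fails -/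
theorem not_alg (hB : SpecCore) : ¬ AlgebraicD2Property GA :=
  H538.not_algebraicD2Property PrA betaA (2 : Fin 3) fox2_betaA
    (by rw [betaA_two]; exact isUnit_one) rfl hB

/-- the topological D(2) property fails, with an explicit complex -/
theorem not_top (hB : SpecCore) :
    ∃ (X : Type) (_ : TopologicalSpace X) (_ : T2Space X) (_ : CWComplex (univ : Set X)),
    CWComplex.Finite (univ : Set X) ∧ ConnectedSpace X ∧
    (∀ m > 3, IsEmpty (RelCWComplex.cell (univ : Set X) m)) ∧
    (∀ x : X, Nonempty (FundamentalGroup X x ≃* GA)) ∧ D2Condition X ∧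
    ¬ HasFiniteTwoModel X := by
  obtain ⟨X, i1, i2, i3, hf, hcon, hpi, hD2, ⟨c0⟩, ⟨c1⟩, ⟨c2⟩, ⟨c3⟩, hdim⟩ :=
    blockD GA PrA betaA lamA fox2_betaA lamA_betaA
  have := hf
  have := hcon
  obtain ⟨x⟩ : Nonempty X := inferInstance
  obtain ⟨e⟩ := hpi x
  refine ⟨X, i1, i2, i3, hf, hcon, hdim, hpi, hD2, ?_⟩
  refine no_two_model GA (gens_le hB) X x e hD2 ?_
  have hN : ∀ n ≥ 4, Nat.card (RelCWComplex.cell (univ : Set X) n) = 0 := fun n hn => by
    have := hdim n (by omega)
    exact Nat.card_of_isEmpty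
  rw [H821.chi_eq_sum X hN]
  simp only [Finset.sum_range_succ, Finset.sum_range_zero, Nat.card_congr c0, Nat.card_congr c1,
    Nat.card_congr c2, Nat.card_congr c3, Nat.card_eq_fintype_card, Fintype.card_fin, PrA]
  norm_num

theorem not_d2 (hB : SpecCore) : ¬ D2Property GA := by
  obtain ⟨X, i1, i2, i3, hf, hcon, hdim, hpi, hD2, h⟩ := not_top hB
  have := hf
  have := hcon
  obtain ⟨x⟩ : Nonempty X := inferInstance
  exact fun hG => h (hG X x (hpi x) hD2)

end Vale.Agent.P246.Dis.H52
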