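import Vale.Agent.P246.Dis.H302.ExA2

/-! # P246: the group `A` by its short presentation -/

namespace Vale.Agent.P246.Dis.H52

/-- The relators `b²`, `(a b)³ (b a²)⁻¹`, `t b t⁻¹ a⁻³` (letters `a = 0`, `b = 1`, `t = 2`). -/
def wallRels : Set (FreeGroup (Fin 3)) :=
  {FreeGroup.of 1 ^ 2,
    (FreeGroup.of 0 * FreeGroup.of 1) ^ 3 * (FreeGroup.of 1 * FreeGroup.of 0 ^ 2)⁻¹,
    FreeGroup.of 2 * FreeGroup.of 1 * (FreeGroup.of 2)⁻¹ * (FreeGroup.of 0 ^ 3)⁻¹}

/-- The group `A = ⟨a, b, t | b² = 1, (a b)³ = b a², t b t⁻¹ = a³⟩`. -/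
abbrev WallGroup : Type := PresentedGroup wallRels

/-- generators -/
def xW : Fin 3 → WallGroup := fun i => PresentedGroup.of i

theorem w1 : xW 1 ^ 2 = 1 := by
  have h : PresentedGroup.mk wallRels (FreeGroup.of 1 ^ 2) = 1 :=
    PresentedGroup.one_of_mem (by simp [wallRels])
  rw [map_pow] at h
  exact h

theorem w2 : (xW 0 * xW 1) ^ 3 = xW 1 * xW 0 ^ 2 := by
  have h : PresentedGroup.mk wallRels ((FreeGroup.of 0 * FreeGroup.of 1) ^ 3 *
      (FreeGroup.of 1 * FreeGroup.of 0 ^ 2)⁻¹) = 1 :=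
    PresentedGroup.one_of_mem (by simp [wallRels])
  rw [map_mul, map_inv, map_pow, map_mul, map_mul, map_pow] at h
  exact mul_inv_eq_one.1 h

theorem w3 : xW 2 * xW 1 * (xW 2)⁻¹ = xW 0 ^ 3 := by
  have h : PresentedGroup.mk wallRels (FreeGroup.of 2 * FreeGroup.of 1 * (FreeGroup.of 2)⁻¹ *
      (FreeGroup.of 0 ^ 3)⁻¹) = 1 :=
    PresentedGroup.one_of_mem (by simp [wallRels])
  rw [map_mul, map_inv, map_pow, map_mul, map_mul, map_inv] at h
  exact mul_inv_eq_one.1 h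

theorem aux1 {B : Type*} [Group B] {a b : B} :
    (a * b) ^ 3 = b * a ^ 2 ↔ a * b * a * b * a * b = b * a * a := by
  rw [pow_succ, pow_two, pow_two]
  simp only [mul_assoc]

theorem aux2 {B : Type*} [Group B] {a c : B} : c = a ^ 3 ↔ c = a * a * a := by
  rw [pow_succ, pow_two]

theorem lift_rels {B : Type*} [Group B] {x : Fin 3 → B} (h1 : x 1 * x 1 = 1)
    (h2 : x 0 * x 1 * x 0 * x 1 * x 0 * x 1 = x 1 * x 0 * x 0)
    (h3 : x 2 * x 1 * (x 2)⁻¹ = x 0 * x 0 * x 0) :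
    ∀ r ∈ wallRels, FreeGroup.lift x r = 1 := by
  rintro r (rfl | rfl | rfl)
  · rw [map_pow, FreeGroup.lift_apply_of, pow_two, h1]
  · rw [map_mul, map_inv, map_pow, map_mul, map_mul, map_pow, FreeGroup.lift_apply_of,
      FreeGroup.lift_apply_of, mul_inv_eq_one]
    exact aux1.2 h2
  · rw [map_mul, map_inv, map_pow, map_mul, map_mul, map_inv, FreeGroup.lift_apply_of,
      FreeGroup.lift_apply_of, FreeGroup.lift_apply_of, mul_inv_eq_one]
    exact aux2.2 h3

/-- the two presentations define isomorphic groups -/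
theorem exists_equiv : Nonempty (GA ≃* WallGroup) := by
  obtain ⟨θ, h0, h1, h2⟩ := exists_liftA (xW 0) (xW 1) (xW 2) (aux1.1 w2) (aux2.1 w3)
    (by rw [← pow_two, w1])
  have hx : ∀ r ∈ wallRels, FreeGroup.lift xA r = 1 := lift_rels b_sq aba tbt_cube
  let η : WallGroup →* GA := PresentedGroup.toGroup hx
  have hη : ∀ i, η (xW i) = xA i := fun i => PresentedGroup.toGroup.of hx
  have hθ : ∀ i, θ (xA i) = xW i := by
    intro i; fin_cases i
    · exact h0
    · exact h1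
    · exact h2
  refine ⟨MonoidHom.toMulEquiv θ η ?_ ?_⟩
  · exact hom_extA fun i => by rw [MonoidHom.comp_apply, hθ, hη, MonoidHom.id_apply]
  · refine PresentedGroup.ext fun i => ?_
    change θ (η (xW i)) = xW i
    rw [hη, hθ]

end Vale.Agent.P246.Dis.H52
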