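import Vale.Agent.P246.Dis.H87.Pres
import Vale.Agent.P246.Dis.H285.PiOne
import Vale.Agent.P246.Dis.H140.Cover
import Vale.Agent.P246.Dis.H821.Euler

/-! # P246: final assembly of the disproof of Wall's D(2) problem

Blocks U (H140), C1 (H87), C2 (H821) are used as theorems. The outputs of the other blocks are the
statements `SpecDef` (blocks A, B) and `SpecD` (block D). -/

open Topology Set

namespace Vale.Agent.P246.Dis.H52

open Vale.Agent.P246.T

/-- BLOCKS A, B: every finite presentation of `G` has at least as many relators as generators. -/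
def SpecDef (G : Type) [Group G] : Prop := ∀ Q : FinPresentation G, Q.gens ≤ Q.rels

/-- BLOCK D: a presentation complex with one 3-cell. -/
def SpecD : Prop := ∀ (G : Type) [Group G] (Pr : FinPresentation G) (β : Fin Pr.rels → ZG G)
  (lam : (Fin Pr.rels → ZG G) →ₗ[ZG G] ZG G), fox2 Pr β = 0 → lam β = 1 →
  ∃ (X : Type) (_ : TopologicalSpace X) (_ : T2Space X) (_ : CWComplex (univ : Set X)),
    CWComplex.Finite (univ : Set X) ∧ ConnectedSpace X ∧
    (∀ x : X, Nonempty (FundamentalGroup X x ≃* G)) ∧ D2Condition X ∧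
    Nonempty (RelCWComplex.cell (univ : Set X) 0 ≃ Fin 1) ∧
    Nonempty (RelCWComplex.cell (univ : Set X) 1 ≃ Fin Pr.gens) ∧
    Nonempty (RelCWComplex.cell (univ : Set X) 2 ≃ Fin Pr.rels) ∧
    Nonempty (RelCWComplex.cell (univ : Set X) 3 ≃ Fin 1) ∧
    ∀ m > 3, IsEmpty (RelCWComplex.cell (univ : Set X) m)

/-- A finite complex of Euler characteristic at most `0` with fundamental group `G`, which has a
simply connected covering space, is not homotopy equivalent to a finite complex of dimension at
most two, if all presentations of `G` have at least as many relators as generators. -/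
theorem no_two_model (G : Type) [Group G] (hdef : SpecDef G)
    (X : Type) [TopologicalSpace X] [T2Space X] [CWComplex (univ : Set X)]
    [CWComplex.Finite (univ : Set X)] [ConnectedSpace X] (x : X) (e : FundamentalGroup X x ≃* G)
    (hE : D2Condition X) (hchi : H821.chi X ≤ 0) : ¬ HasFiniteTwoModel X := by
  rintro ⟨Y, _, _, _, hYf, hY2, ⟨h⟩⟩
  have := hYf
  obtain ⟨E, _, p, hp, hsc, -, -⟩ := hE
  obtain ⟨-, -, hlX⟩ := T.CWB.main X
  have hpX : PathConnectedSpace X := PathConnectedSpace.of_locallyPathConnectedSpace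
  have hlE : LocallyPathConnectedSpace E :=
    T.AC.locallyPathConnectedSpace hp.isLocalHomeomorph
  obtain ⟨_, hq⟩ := H87.exists_action' hp x e
  have hc : ContinuousConstSMul G E := hq.toContinuousConstSMul
  obtain ⟨F, _, _, _, q, r, hF, hq', -, -⟩ :=
    H140.exists_cover_of_htpyEquiv ⟨p, hp.continuous⟩ hq h.symm
  have hpF : PathConnectedSpace F := inferInstance
  have hpY : PathConnectedSpace Y := hq'.surjective.pathConnectedSpace q.continuous
  obtain ⟨y⟩ : Nonempty Y := inferInstance
  obtain ⟨e'⟩ := H285.pi1_equiv hq' y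
  obtain ⟨Q, hg, hr⟩ := H87.exists_pres_of_cw hY2 hq'.isCoveringMap y e'
  have h1 := H821.euler_eq X Y ⟨h⟩
  rw [H821.chi_dim_two Y hY2] at h1
  have h4 := hdef Q
  omega

/-- The final theorem from the blocks. -/
theorem final (hD : SpecD) (G : Type) [Group G] (hdef : SpecDef G) (Pr : FinPresentation G)
    (hrel : Pr.rels = Pr.gens) (β : Fin Pr.rels → ZG G)
    (lam : (Fin Pr.rels → ZG G) →ₗ[ZG G] ZG G) (hβ : fox2 Pr β = 0) (hlam : lam β = 1) :
    ¬ D2Property G := by
  intro hG
  obtain ⟨X, _, _, _, hf, hcon, hpi, hD2, ⟨c0⟩, ⟨c1⟩, ⟨c2⟩, ⟨c3⟩, hdim⟩ :=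
    hD G Pr β lam hβ hlam
  have := hf
  have := hcon
  obtain ⟨x⟩ : Nonempty X := inferInstance
  obtain ⟨e⟩ := hpi x
  refine no_two_model G hdef X x e hD2 ?_ (hG X x ⟨e⟩ hD2)
  have hN : ∀ n ≥ 4, Nat.card (RelCWComplex.cell (univ : Set X) n) = 0 := fun n hn => by
    have := hdim n (by omega)
    exact Nat.card_of_isEmpty
  rw [H821.chi_eq_sum X hN]
  simp only [Finset.sum_range_succ, Finset.sum_range_zero, Nat.card_congr c0, Nat.card_congr c1,
    Nat.card_congr c2, Nat.card_congr c3, Nat.card_eq_fintype_card, Fintype.card_fin, hrel]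
  norm_num

end Vale.Agent.P246.Dis.H52
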